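import Mathlib
import Vale.Agent.P192.Orbit

/-!
P192: finitely presented periodic groups have finite images in full groups of `ℤ`-actions.
-/

namespace Vale.Agent.Results.P192.FullGroups

open Equiv

theorem result : ∀ (G : Type) [Group G], Group.IsFinitelyPresented G →
    (∀ g : G, IsOfFinOrder g) → ∀ (X : Type) (φ : Equiv.Perm X) (ρ : G →* Equiv.Perm X),
    (∀ g : G, ∃ C : ℕ, ∀ x : X, ∃ k : ℤ, |k| ≤ (C : ℤ) ∧ ρ g x = (φ ^ k) x) →
    Finite ρ.range := by
  intro G _ hfp htor X φ ρ hb
  classical
  obtain ⟨n, π, hπ, R, hR, hRπ⟩ := hfp.out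
  choose C hC using hb
  let D : ℕ := Finset.univ.sup fun i : Fin n =>
    max (C (π (FreeGroup.of i))) (C (π (FreeGroup.of i))⁻¹)
  have hD1 : ∀ i, C (π (FreeGroup.of i)) ≤ D ∧ C (π (FreeGroup.of i))⁻¹ ≤ D := fun i =>
    max_le_iff.1 (Finset.le_sup (f := fun i : Fin n =>
      max (C (π (FreeGroup.of i))) (C (π (FreeGroup.of i))⁻¹)) (Finset.mem_univ i))
  let L : ℕ := hR.toFinset.sup fun r => r.toWord.length
  obtain ⟨K, hK⟩ := Vale.Agent.P192.orbit_bound R hR (fun w => by
    obtain ⟨m, hm, hpow⟩ := isOfFinOrder_iff_pow_eq_one.1 (htor (π w))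
    refine ⟨m, hm, ?_⟩
    rw [hRπ, MonoidHom.mem_ker, map_pow, hpow]) D
  let M : ℕ := D * L + 2 * D
  have hpow : ∀ (i j : ℤ) x, (φ ^ i) ((φ ^ j) x) = (φ ^ (i + j)) x := fun i j x => by
    rw [zpow_add]; rfl
  -- every orbit lies in a finite segment of a `φ`-orbit of uniformly bounded size
  have horb : ∀ x₀ : X, ∀ g, ∃ k : ℤ, |k| ≤ ((K + M : ℕ) : ℤ) ∧ ρ g x₀ = (φ ^ k) x₀ := by
    intro x₀ g
    by_cases hsmall : ∃ p : ℤ, 0 < p ∧ p ≤ (M : ℤ) ∧ (φ ^ p) x₀ = x₀
    · obtain ⟨p, hp, hpM, hpx⟩ := hsmall
      obtain ⟨k, -, hk⟩ := hC g x₀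
      have hfix : ∀ q : ℤ, (φ ^ (q * p)) x₀ = x₀ := fun q => by
        induction q using Int.induction_on with
        | zero => simp
        | succ i ih => rw [show ((i : ℤ) + 1) * p = i * p + p by ring, ← hpow, hpx, ih]
        | pred i ih =>
          have := congrArg (φ ^ ((-(i : ℤ) - 1) * p)) hpx
          rw [hpow, show (-(i : ℤ) - 1) * p + p = -(i : ℤ) * p by ring, ih] at this
          exact this.symm
      refine ⟨k % p, ?_, ?_⟩
      · rw [abs_of_nonneg (Int.emod_nonneg k hp.ne')]
        have := Int.emod_lt_of_pos k hp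
        push_cast; omega
      · rw [hk]
        conv_lhs => rw [show k = k % p + k / p * p by rw [Int.emod_def]; ring, ← hpow, hfix]
    · push_neg at hsmall
      have huniq : ∀ a b : ℤ, |a - b| ≤ (M : ℤ) → (φ ^ a) x₀ = (φ ^ b) x₀ → a = b := by
        have h1 : ∀ a b : ℤ, b < a → a - b ≤ (M : ℤ) → (φ ^ a) x₀ ≠ (φ ^ b) x₀ := fun a b h hab e =>
          hsmall (a - b) (by omega) hab (by
            have := congrArg (φ ^ (-b)) e
            rw [hpow, hpow, neg_add_cancel, zpow_zero, neg_add_eq_sub] at this
            exact this)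
        intro a b hab e
        rw [abs_le] at hab
        rcases lt_trichotomy a b with h | h | h
        · exact absurd e.symm (h1 b a h (by omega))
        · exact h
        · exact absurd e (h1 a b h (by omega))
      choose A hA hA' using fun (i : Fin n) (m : ℤ) =>
        hC (π (FreeGroup.of i)) ((φ ^ m) x₀)
      choose B hB hB' using fun (i : Fin n) (m : ℤ) =>
        hC (π (FreeGroup.of i))⁻¹ ((φ ^ m) x₀)
      have hAD : ∀ i m, |A i m| ≤ (D : ℤ) := fun i m =>
        (hA i m).trans (Int.ofNat_le.2 (hD1 i).1)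
      have hBD : ∀ i m, |B i m| ≤ (D : ℤ) := fun i m =>
        (hB i m).trans (Int.ofNat_le.2 (hD1 i).2)
      have hDM : (2 : ℤ) * D ≤ M := by simp only [M]; omega
      have hBA : ∀ i m, B i (m + A i m) + A i m = 0 := fun i m => by
        have h1 := hA' i m
        have h2 := hB' i (m + A i m)
        rw [hpow, add_comm] at h1
        rw [← h1, ← Perm.mul_apply, ← map_mul, inv_mul_cancel, map_one, Perm.one_apply, h1,
          hpow] at h2
        have := hAD i m
        have := hBD i (m + A i m)
        have := huniq m (B i (m + A i m) + (m + A i m))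
          (by rw [abs_le] at *; constructor <;> omega) h2
        omega
      have hAB : ∀ i m, A i (m + B i m) + B i m = 0 := fun i m => by
        have h1 := hB' i m
        have h2 := hA' i (m + B i m)
        rw [hpow, add_comm] at h1
        rw [← h1, ← Perm.mul_apply, ← map_mul, mul_inv_cancel, map_one, Perm.one_apply, h1,
          hpow] at h2
        have := hBD i m
        have := hAD i (m + B i m)
        have := huniq m (A i (m + B i m) + (m + B i m))
          (by rw [abs_le] at *; constructor <;> omega) h2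
        omega
      let σ : Fin n → Perm ℤ := fun i =>
        ⟨fun m => m + A i m, fun m => m + B i m,
          fun m => by have := hBA i m; linarith, fun m => by have := hAB i m; linarith⟩
      have hσD : ∀ i z, |σ i z - z| ≤ (D : ℤ) ∧ |(σ i)⁻¹ z - z| ≤ (D : ℤ) := fun i z =>
        ⟨by show |z + A i z - z| ≤ _; rw [add_sub_cancel_left]; exact hAD i z,
          by show |z + B i z - z| ≤ _; rw [add_sub_cancel_left]; exact hBD i z⟩
      have hact : ∀ w m, ρ (π w) ((φ ^ m) x₀) = (φ ^ FreeGroup.lift σ w m) x₀ := by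
        intro w
        induction w using FreeGroup.induction_on with
        | C1 => simp
        | of i =>
          intro m
          rw [hA', hpow, FreeGroup.lift_apply_of]
          show _ = (φ ^ (m + A i m)) x₀
          rw [add_comm]
        | inv_of i _ =>
          intro m
          rw [map_inv, hB', hpow, map_inv, FreeGroup.lift_apply_of]
          show _ = (φ ^ (m + B i m)) x₀
          rw [add_comm]
        | mul a b ha hb =>
          intro m
          rw [map_mul, map_mul, Perm.mul_apply, hb, ha, map_mul, Perm.mul_apply]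
      have hrel : ∀ r ∈ R, FreeGroup.lift σ r = 1 := fun r hr => by
        refine Equiv.ext fun m => ?_
        have h1 := hact r m
        have h2 : π r = 1 := MonoidHom.mem_ker.1 (hRπ ▸ Subgroup.subset_normalClosure hr)
        rw [h2, map_one, Perm.one_apply] at h1
        have hlen : r.toWord.length ≤ L :=
          Finset.le_sup (f := fun r : FreeGroup (Fin n) => r.toWord.length) (hR.mem_toFinset.2 hr)
        exact huniq _ _ ((Vale.Agent.P192.abs_lift_le σ D hσD r m).trans (Int.ofNat_le.2
          ((Nat.mul_le_mul_left D hlen).trans (Nat.le_add_right _ _)))) h1.symm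
      obtain ⟨w, rfl⟩ := hπ g
      refine ⟨FreeGroup.lift σ w 0, ?_, ?_⟩
      · have := hK σ hσD hrel w 0
        rw [sub_zero] at this
        push_cast; omega
      · have := hact w 0
        simpa using this
  -- a finitely generated group has finitely many actions on a set of bounded size
  have : Group.FG G := Group.fg_of_surjective hπ
  let P : ℕ := 2 * (K + M) + 1
  have : Finite (G →* Perm (Fin P)) := by
    refine Finite.of_injective
      (fun f : G →* Perm (Fin P) => fun i => f (π (FreeGroup.of i))) fun f g h => ?_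
    have h' : f.comp π = g.comp π := FreeGroup.ext_hom _ _ fun i => congrFun h i
    refine MonoidHom.ext fun x => ?_
    obtain ⟨w, rfl⟩ := hπ x
    exact DFunLike.congr_fun h' w
  have hdet : ∀ g : G, (∀ f : G →* Perm (Fin P), f g = 1) → ρ g = 1 := by
    intro g hg
    refine Equiv.ext fun x₀ => ?_
    let O : Set X := Set.range fun h => ρ h x₀
    let seg : Finset ℤ := Finset.Icc (-((K + M : ℕ) : ℤ)) (K + M : ℕ)
    have hsub : O ⊆ (fun k : ℤ => (φ ^ k) x₀) '' seg := by
      rintro _ ⟨h, rfl⟩
      obtain ⟨k, hk, hk'⟩ := horb x₀ h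
      exact ⟨k, Finset.mem_Icc.2 (abs_le.1 hk), hk'.symm⟩
    have hfinO : O.Finite := (seg.finite_toSet.image _).subset hsub
    have : Finite O := hfinO.to_subtype
    have hcard : Nat.card O ≤ P := by
      have h1 := Nat.card_mono (seg.finite_toSet.image _) hsub
      have h2 := Nat.card_image_le (f := fun k : ℤ => (φ ^ k) x₀) seg.finite_toSet
      have h3 : Nat.card (seg : Set ℤ) = P := by
        simp only [SetLike.coe_sort_coe, Nat.card_eq_fintype_card, Fintype.card_coe,
          Int.card_Icc, seg, P]
        omega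
      omega
    have hinv : ∀ h x, ρ h x ∈ O ↔ x ∈ O := fun h x => by
      constructor
      · rintro ⟨h', e⟩
        exact ⟨h⁻¹ * h', by simp only at e ⊢; rw [map_mul, Perm.mul_apply, e, map_inv,
          Perm.inv_def, Equiv.symm_apply_apply]⟩
      · rintro ⟨h', e⟩
        exact ⟨h * h', by simp only at e ⊢; rw [map_mul, Perm.mul_apply, e]⟩
    let Q : G →* Perm O :=
      { toFun := fun h => (ρ h).subtypePerm (hinv h)
        map_one' := by ext x; simp
        map_mul' := fun a b => by
          ext x
          show ρ (a * b) x.1 = ρ a (ρ b x.1)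
          rw [map_mul]; rfl }
    let ι : O ↪ Fin P := (Finite.equivFin O).toEmbedding.trans (Fin.castLEEmb hcard)
    have h1 : Q g = 1 := Perm.viaEmbeddingHom_injective ι (by
      rw [map_one]; exact hg ((Perm.viaEmbeddingHom ι).comp Q))
    exact congrArg (fun e : Perm O => (e ⟨x₀, 1, by simp⟩).1) h1
  let Φ : G →* ((G →* Perm (Fin P)) → Perm (Fin P)) := Pi.monoidHom fun f => f
  refine Finite.of_injective (fun x : ρ.range => Φ (MonoidHom.mem_range.1 x.2).choose) ?_
  intro x y hxy
  have hx := (MonoidHom.mem_range.1 x.2).choose_spec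
  have hy := (MonoidHom.mem_range.1 y.2).choose_spec
  have h1 : ρ ((MonoidHom.mem_range.1 x.2).choose * (MonoidHom.mem_range.1 y.2).choose⁻¹) = 1 := hdet _ fun f => by
    have := congrFun hxy f
    change f _ = f _ at this
    rw [map_mul, map_inv, this, mul_inv_cancel]
  rw [map_mul, map_inv, hx, hy, mul_inv_eq_one] at h1
  exact Subtype.ext h1

end Vale.Agent.Results.P192.FullGroups
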